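import Mathlib

/-!
# Seymour's second neighbourhood conjecture: base file (helper173)

`E : Finset (V × V)` is the arc set.  `cl E S` is the closed out-neighbourhood of `S`,
`c E S = |cl S| - |S|`.
-/

namespace Vale.Agent.P038.H173

open Finset Classical

variable {V : Type*} [Fintype V]

/-- closed out-neighbourhood -/
noncomputable def cl (E : Finset (V × V)) (S : Finset V) : Finset V :=
  univ.filter (fun v => ∃ u ∈ S, (u = v ∨ (u, v) ∈ E))

noncomputable def c (E : Finset (V × V)) (S : Finset V) : ℤ := ((cl E S).card : ℤ) - S.card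

theorem mem_cl {E : Finset (V × V)} {S : Finset V} {v : V} :
    v ∈ cl E S ↔ ∃ u ∈ S, (u = v ∨ (u, v) ∈ E) := by
  simp [cl]

theorem sub_cl (E : Finset (V × V)) (S : Finset V) : S ⊆ cl E S := fun v hv =>
  mem_cl.2 ⟨v, hv, Or.inl rfl⟩

theorem cl_mono {E : Finset (V × V)} {S T : Finset V} (h : S ⊆ T) : cl E S ⊆ cl E T := by
  intro v hv
  obtain ⟨u, hu, h1⟩ := mem_cl.1 hv
  exact mem_cl.2 ⟨u, h hu, h1⟩

theorem cl_union (E : Finset (V × V)) (S T : Finset V) : cl E (S ∪ T) = cl E S ∪ cl E T := by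
  ext v
  simp only [mem_cl, mem_union]
  constructor
  · rintro ⟨u, hu | hu, h⟩
    · exact Or.inl ⟨u, hu, h⟩
    · exact Or.inr ⟨u, hu, h⟩
  · rintro (⟨u, hu, h⟩ | ⟨u, hu, h⟩)
    · exact ⟨u, Or.inl hu, h⟩
    · exact ⟨u, Or.inr hu, h⟩

/-- submodularity -/
theorem c_submod (E : Finset (V × V)) (S T : Finset V) :
    c E (S ∪ T) + c E (S ∩ T) ≤ c E S + c E T := by
  unfold c
  have h1 : (cl E (S ∪ T)).card = (cl E S ∪ cl E T).card := by rw [cl_union]
  have h2 : (cl E (S ∩ T)).card ≤ (cl E S ∩ cl E T).card := by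
    apply card_le_card
    intro v hv
    exact mem_inter.2 ⟨cl_mono inter_subset_left hv, cl_mono inter_subset_right hv⟩
  have h3 := card_union_add_card_inter (cl E S) (cl E T)
  have h4 := card_union_add_card_inter S T
  have h5 : ((cl E (S ∪ T)).card : ℤ) + (cl E (S ∩ T)).card ≤ (cl E S).card + (cl E T).card := by
    have : (cl E (S ∪ T)).card + (cl E (S ∩ T)).card ≤ (cl E S).card + (cl E T).card := by
      omega
    exact_mod_cast this
  have h6 : ((S ∪ T).card : ℤ) + (S ∩ T).card = S.card + T.card := by exact_mod_cast h4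
  linarith

/-- a counterexample: every vertex has fewer second than first out-neighbours -/
def CE (E : Finset (V × V)) : Prop := ∀ v : V, c E (cl E {v}) < c E {v}

def Ori (E : Finset (V × V)) : Prop := ∀ a b : V, (a, b) ∈ E → (b, a) ∉ E

end Vale.Agent.P038.H173
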