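import Vale.Agent.P038.H173.Base

/-!
# 294's theorem: in an arc-minimal counterexample `c (cl S) < c S` for every `S` with `cl S ≠ S`
-/

namespace Vale.Agent.P038.H173

open Finset Classical

variable {V : Type*} [Fintype V]

theorem gThm {E : Finset (V × V)} (hCE : CE E)
    (hmin : ∀ E' : Finset (V × V), E' ⊂ E → ¬ CE E') (X : Finset V) (hX : cl E X ≠ X) :
    c E (cl E X) < c E X := by
  by_contra hcon
  push Not at hcon
  set L := cl E X \ X with hL
  have hLX : Disjoint L X := by rw [hL]; exact sdiff_disjoint
  have hLne : L.Nonempty := by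
    rw [hL, sdiff_nonempty]
    intro h
    exact hX (Subset.antisymm h (sub_cl E X))
  -- d T
  let d : Finset V → ℤ := fun T => ((cl E T \ X).card : ℤ) - 2 * T.card
  have hdL : d L = c E (cl E X) - c E X := by
    have h1 : cl E (cl E X) = X ∪ (cl E L \ X) := by
      have h2 : cl E X = X ∪ L := by rw [hL]; exact (union_sdiff_of_subset (sub_cl E X)).symm
      have h3 : cl E (cl E X) = cl E X ∪ cl E L := by
        conv_lhs => rw [h2]
        exact cl_union E X L
      rw [h3]
      ext v
      simp only [mem_union, mem_sdiff]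
      constructor
      · rintro (h | h)
        · by_cases hv : v ∈ X
          · exact Or.inl hv
          · refine Or.inr ⟨sub_cl E L ?_, hv⟩
            rw [hL]; exact mem_sdiff.2 ⟨h, hv⟩
        · by_cases hv : v ∈ X
          · exact Or.inl hv
          · exact Or.inr ⟨h, hv⟩
      · rintro (h | h)
        · exact Or.inl (sub_cl E X h)
        · exact Or.inr h.1
    have h4 : (cl E (cl E X)).card = X.card + (cl E L \ X).card := by
      rw [h1]; exact card_union_of_disjoint disjoint_sdiff
    have h5 : (cl E X).card = X.card + L.card := by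
      have h2 : cl E X = X ∪ L := by rw [hL]; exact (union_sdiff_of_subset (sub_cl E X)).symm
      conv_lhs => rw [h2]
      exact card_union_of_disjoint hLX.symm
    show ((cl E L \ X).card : ℤ) - 2 * L.card = c E (cl E X) - c E X
    unfold c
    rw [h4, h5]
    push_cast
    ring
  have hd0 : d ∅ = 0 := by
    show ((cl E (∅ : Finset V) \ X).card : ℤ) - 2 * (∅ : Finset V).card = 0
    have : cl E (∅ : Finset V) = ∅ := by
      ext v; simp [mem_cl]
    rw [this]; simp
  -- minimiser among proper subsets
  obtain ⟨T, hT, hTmin⟩ := exists_min_image (univ.filter (fun T : Finset V => T ⊂ L)) d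
    ⟨∅, by simpa using (empty_ssubset.2 hLne)⟩
  have hTL : T ⊂ L := by simpa using hT
  have hT0 : d T ≤ 0 := by
    have := hTmin ∅ (by simpa using (empty_ssubset.2 hLne))
    linarith [hd0]
  have hTX : Disjoint T X := disjoint_of_subset_left hTL.1 hLX
  have hTall : ∀ U : Finset V, U ⊆ L → d T ≤ d U := by
    intro U hU
    by_cases h : U = L
    · rw [h, hdL]; linarith
    · exact hTmin U (by simpa using lt_of_le_of_ne hU h)
  -- new arc set
  let E' : Finset (V × V) := E.filter (fun p => ¬ (p.1 ∈ X ∧ p.2 ∉ X ∧ p.2 ∉ T))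
  have hE'E : E' ⊆ E := filter_subset _ _
  have hss : E' ⊂ E := by
    refine ⟨hE'E, fun h => ?_⟩
    obtain ⟨l, hl, hlT⟩ := exists_of_ssubset hTL
    have h1 : l ∈ cl E X \ X := by rw [← hL]; exact hl
    obtain ⟨h2, h3⟩ := mem_sdiff.1 h1
    obtain ⟨u, hu, hul⟩ := mem_cl.1 h2
    rcases hul with rfl | hul
    · exact h3 hu
    · have := h hul
      simp only [E', mem_filter] at this
      exact this.2 ⟨hu, h3, hlT⟩
  apply hmin E' hss
  intro y
  have hy := hCE y
  have hcl1 : ∀ v, v ∈ cl E' {y} ↔ v = y ∨ (y, v) ∈ E' := by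
    intro v
    simp only [mem_cl, mem_singleton]
    constructor
    · rintro ⟨u, rfl, h | h⟩
      · exact Or.inl h.symm
      · exact Or.inr h
    · rintro (h | h)
      · exact ⟨y, rfl, Or.inl h.symm⟩
      · exact ⟨y, rfl, Or.inr h⟩
  have hcl2 : ∀ v, v ∈ cl E {y} ↔ v = y ∨ (y, v) ∈ E := by
    intro v
    simp only [mem_cl, mem_singleton]
    constructor
    · rintro ⟨u, rfl, h | h⟩
      · exact Or.inl h.symm
      · exact Or.inr h
    · rintro (h | h)
      · exact ⟨y, rfl, Or.inl h.symm⟩
      · exact ⟨y, rfl, Or.inr h⟩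
  have hclsub : ∀ S, cl E' S ⊆ cl E S := by
    intro S v hv
    obtain ⟨u, hu, h⟩ := mem_cl.1 hv
    rcases h with h | h
    · exact mem_cl.2 ⟨u, hu, Or.inl h⟩
    · exact mem_cl.2 ⟨u, hu, Or.inr (hE'E h)⟩
  by_cases hyX : y ∈ X
  · -- D_y
    set Dy := cl E {y} \ (X ∪ T) with hDy
    have hDL : Dy ⊆ L := by
      intro v hv
      obtain ⟨h1, h2⟩ := mem_sdiff.1 hv
      rw [hL]
      refine mem_sdiff.2 ⟨cl_mono (singleton_subset_iff.2 hyX) h1, fun h => h2 (mem_union_left _ h)⟩
    have hDT : Disjoint T Dy := by
      rw [disjoint_left]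
      intro v hv hv2
      exact (mem_sdiff.1 hv2).2 (mem_union_right _ hv)
    have hclD : cl E' {y} = cl E {y} \ Dy := by
      ext v
      rw [hcl1, mem_sdiff, hDy, mem_sdiff, hcl2]
      simp only [E', mem_filter, mem_union]
      constructor
      · rintro (rfl | ⟨h1, h2⟩)
        · exact ⟨Or.inl rfl, fun h => h.2 (Or.inl hyX)⟩
        · refine ⟨Or.inr h1, fun h => ?_⟩
          apply h2
          refine ⟨hyX, fun h3 => h.2 (Or.inl h3), fun h3 => h.2 (Or.inr h3)⟩
      · rintro ⟨h1, h2⟩
        rcases h1 with rfl | h1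
        · exact Or.inl rfl
        · right
          refine ⟨h1, fun h => ?_⟩
          apply h2
          refine ⟨Or.inr h1, fun h3 => ?_⟩
          rcases h3 with h3 | h3
          · exact h.2.1 h3
          · exact h.2.2 h3
    set Ey := cl E Dy \ (cl E T ∪ X) with hEy
    have hcardcl : ((cl E' {y}).card : ℤ) = (cl E {y}).card - Dy.card := by
      have h0 : Dy ⊆ cl E {y} := by rw [hDy]; exact sdiff_subset
      have h1 := card_sdiff_add_card_eq_card h0
      rw [hclD]
      have : ((cl E {y} \ Dy).card : ℤ) + Dy.card = (cl E {y}).card := by exact_mod_cast h1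
      linarith
    have hEd : 2 * (Dy.card : ℤ) ≤ Ey.card := by
      have h1 := hTall (T ∪ Dy) (union_subset hTL.1 hDL)
      have h2 : d (T ∪ Dy) = d T + (Ey.card - 2 * Dy.card) := by
        show ((cl E (T ∪ Dy) \ X).card : ℤ) - 2 * (T ∪ Dy).card
          = (((cl E T \ X).card : ℤ) - 2 * T.card) + (Ey.card - 2 * Dy.card)
        have h3 : cl E (T ∪ Dy) \ X = (cl E T \ X) ∪ Ey := by
          rw [cl_union, hEy]
          ext v
          simp only [mem_union, mem_sdiff]
          tauto
        have h4 : Disjoint (cl E T \ X) Ey := by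
          rw [disjoint_left]
          intro v hv hv2
          rw [hEy] at hv2
          exact (mem_sdiff.1 hv2).2 (mem_union_left _ (mem_sdiff.1 hv).1)
        rw [h3, card_union_of_disjoint h4, card_union_of_disjoint hDT]
        push_cast
        ring
      linarith
    have hEsub : Ey ⊆ cl E (cl E {y}) := by
      intro v hv
      rw [hEy] at hv
      have h0 : Dy ⊆ cl E {y} := by rw [hDy]; exact sdiff_subset
      exact cl_mono h0 (mem_sdiff.1 hv).1
    have hdis : cl E' (cl E' {y}) ⊆ cl E (cl E {y}) \ Ey := by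
      intro z hz
      refine mem_sdiff.2 ⟨?_, fun hzE => ?_⟩
      · exact cl_mono (hclsub {y}) (hclsub _ hz)
      · rw [hEy] at hzE
        obtain ⟨hz1, hz2⟩ := mem_sdiff.1 hzE
        have hzT : z ∉ cl E T := fun h => hz2 (mem_union_left _ h)
        have hzX : z ∉ X := fun h => hz2 (mem_union_right _ h)
        have hin : ∀ u, u ∈ cl E' {y} → u ∈ X ∨ u ∈ T := by
          intro u hu
          rw [hclD] at hu
          obtain ⟨h1, h2⟩ := mem_sdiff.1 hu
          by_contra h3
          push Not at h3
          apply h2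
          rw [hDy]
          refine mem_sdiff.2 ⟨h1, fun h4 => ?_⟩
          rcases mem_union.1 h4 with h5 | h5
          · exact h3.1 h5
          · exact h3.2 h5
        obtain ⟨u, hu, huz⟩ := mem_cl.1 hz
        rcases huz with rfl | huz
        · rcases hin _ hu with h | h
          · exact hzX h
          · exact hzT (sub_cl E T h)
        · rcases hin _ hu with h | h
          · have h6 := huz
            simp only [E', mem_filter] at h6
            apply h6.2
            refine ⟨h, hzX, fun h7 => hzT (sub_cl E T h7)⟩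
          · exact hzT (mem_cl.2 ⟨u, h, Or.inr (hE'E huz)⟩)
    have hcard2 : ((cl E' (cl E' {y})).card : ℤ) ≤ (cl E (cl E {y})).card - Ey.card := by
      have h1 := card_le_card hdis
      have h2 := card_sdiff_add_card_eq_card hEsub
      have h3 : ((cl E (cl E {y}) \ Ey).card : ℤ) + Ey.card = (cl E (cl E {y})).card := by
        exact_mod_cast h2
      have h4 : ((cl E' (cl E' {y})).card : ℤ) ≤ (cl E (cl E {y}) \ Ey).card := by
        exact_mod_cast h1
      linarith
    unfold c at hy ⊢
    linarith
  · have hcl3 : cl E' {y} = cl E {y} := by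
      ext v
      rw [hcl1, hcl2]
      simp only [E', mem_filter]
      constructor
      · rintro (h | h)
        · exact Or.inl h
        · exact Or.inr h.1
      · rintro (h | h)
        · exact Or.inl h
        · exact Or.inr ⟨h, fun h2 => hyX h2.1⟩
    have h1 : ((cl E' (cl E' {y})).card : ℤ) ≤ (cl E (cl E {y})).card := by
      rw [hcl3]
      exact_mod_cast card_le_card (hclsub _)
    unfold c at hy ⊢
    rw [hcl3] at h1 ⊢
    linarith

end Vale.Agent.P038.H173
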