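import Vale.Agent.P038.H173.Mc
import Vale.Agent.P038.H173.G

/-!
# Seymour's second neighbourhood conjecture (helper173)
-/

namespace Vale.Agent.P038.H173

open Finset Classical

variable {V : Type*} [Fintype V]

/-- number of pairs of a relation, as a double sum -/
theorem card_sum (R : V → Finset V) :
    ∑ a, ((R a).card : ℤ) = ∑ a, ∑ x, (if x ∈ R a then 1 else 0 : ℤ) := by
  apply sum_congr rfl
  intro a _
  simp

theorem card_sum' (R : V → Finset V) :
    ∑ a, ((R a).card : ℤ) = ∑ a, ∑ x, (if a ∈ R x then 1 else 0 : ℤ) := by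
  rw [card_sum, sum_comm]

noncomputable def KK (V : Type*) [Fintype V] : ℤ := ∑ a : V, ∑ x : V, (1 + if a = x then 1 else 0)

theorem card_le {R R' : V → Finset V} (h : ∀ a x, a ≠ x → x ∈ R a → a ∉ R' x) :
    ∑ a, ((R a).card : ℤ) + ∑ a, ((R' a).card : ℤ) ≤ KK V := by
  rw [card_sum R, card_sum' R', ← sum_add_distrib]
  unfold KK
  apply sum_le_sum
  intro a _
  rw [← sum_add_distrib]
  apply sum_le_sum
  intro x _
  by_cases hax : a = x
  · split_ifs <;> norm_num
  · have := h a x hax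
    by_cases h1 : x ∈ R a
    · simp [h1, this h1, hax]
    · by_cases h2 : a ∈ R' x <;> simp [h1, h2, hax]

theorem card_ge {R R' : V → Finset V} (h : ∀ a x, a ≠ x → x ∈ R a ∨ a ∈ R' x)
    (h1 : ∀ a, a ∈ R a) (h2 : ∀ a, a ∈ R' a) :
    KK V ≤ ∑ a, ((R a).card : ℤ) + ∑ a, ((R' a).card : ℤ) := by
  rw [card_sum R, card_sum' R', ← sum_add_distrib]
  unfold KK
  apply sum_le_sum
  intro a _
  rw [← sum_add_distrib]
  apply sum_le_sum
  intro x _
  by_cases hax : a = x
  · subst hax; simp [h1 a, h2 a]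
  · rcases h a x hax with h3 | h3
    · by_cases h4 : a ∈ R' x <;> simp [h3, h4, hax]
    · by_cases h4 : x ∈ R a <;> simp [h3, h4, hax]

theorem En_eq (E : Finset (V × V)) (R : V → Finset V) :
    En E R = ∑ a, ((cl E (R a)).card : ℤ) - ∑ a, ((R a).card : ℤ) := by
  unfold En c
  rw [sum_sub_distrib]

variable {E : Finset (V × V)} {B C : V → Finset V}

theorem Opt.dual (h : Opt E B C) :
    En E (Is E (Bh C)) - En E (Bh C) + En E (Is E C) ≤ En E C := by
  have hcompat := h.f.dis
  have hAB := h.f.AB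
  have hAC := h.f.AC
  -- (i)
  have i1 : ∑ a, ((Bh C a).card : ℤ) + ∑ a, ((C a).card : ℤ) ≤ KK V := by
    apply card_le
    intro a x hax hx
    rcases mem_Bh.1 hx with h1 | h1
    · exact absurd h1.symm hax
    · exact h1
  -- (ii)
  have i2 : KK V ≤ ∑ a, ((cl E (Bh C a)).card : ℤ) + ∑ a, ((Is E C a).card : ℤ) := by
    apply card_ge
    · intro a x hax
      by_cases h1 : a ∈ Is E C x
      · exact Or.inr h1
      · left
        rw [mem_Is] at h1
        push Not at h1
        obtain ⟨t, ht, hat⟩ := h1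
        exact mem_cl'.2 ⟨t, mem_Bh.2 (Or.inr hat), ht⟩
    · intro a
      exact sub_cl E _ (mem_Bh.2 (Or.inl rfl))
    · intro a
      exact mem_Is.2 fun s hs => hAC s a hs
  -- (iii)
  have i3 : KK V ≤ ∑ a, ((Is E (Bh C) a).card : ℤ) + ∑ a, ((cl E (C a)).card : ℤ) := by
    apply card_ge
    · intro a x hax
      by_cases h1 : x ∈ Is E (Bh C) a
      · exact Or.inl h1
      · right
        rw [mem_Is] at h1
        push Not at h1
        obtain ⟨s, hs, hxs⟩ := h1
        rw [mem_Bh] at hxs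
        push Not at hxs
        exact mem_cl'.2 ⟨s, hxs.2, hs⟩
    · intro a
      refine mem_Is.2 fun s hs => mem_Bh.2 ?_
      by_cases has : a = s
      · exact Or.inl has
      · exact Or.inr (hcompat s a (fun h => has h.symm) (hAB s a hs))
    · intro a
      exact sub_cl E _ (hAC a a (Or.inl rfl))
  -- (iv)
  have i4 : ∑ a, ((cl E (Is E (Bh C) a)).card : ℤ) + ∑ a, ((cl E (Is E C a)).card : ℤ) ≤ KK V := by
    apply card_le
    intro a u hau hu ha
    obtain ⟨x, hx, hxu⟩ := mem_cl'.1 hu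
    obtain ⟨y, hy, hya⟩ := mem_cl'.1 ha
    have h1 : y ∈ C x := mem_Is.1 hy x hxu
    have h2 : x ∈ Bh C y := mem_Is.1 hx y hya
    have hxy : x = y := by
      rcases mem_Bh.1 h2 with h3 | h3
      · exact h3
      · exact absurd h1 h3
    subst hxy
    have h3 : x ∈ C u := mem_Is.1 hy u (Or.inl rfl)
    have hxu2 : x = u := by
      by_contra hne
      exact hcompat x u hne (hAB x u hxu) h3
    subst hxu2
    have h4 : x ∈ Bh C a := mem_Is.1 hx a (Or.inl rfl)
    rcases mem_Bh.1 h4 with h5 | h5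
    · exact hau h5.symm
    · exact h5 (hAC x a hya)
  rw [En_eq, En_eq, En_eq, En_eq]
  linarith

theorem Opt.f1 (h : Opt E B C) : F1 E (Is E B) (Is E C) := by
  have hcompat := h.f.dis
  have hAB := h.f.AB
  have hAC := h.f.AC
  refine ⟨fun a => mem_Is.2 fun s hs => hAB s a hs, fun a => mem_Is.2 fun s hs => hAC s a hs, ?_⟩
  intro a b hab hb ha
  obtain ⟨x, hx, hxb⟩ := mem_cl'.1 hb
  obtain ⟨y, hy, hya⟩ := mem_cl'.1 ha
  have h1 : x ∈ B y := mem_Is.1 hx y hya
  have h2 : y ∈ C x := mem_Is.1 hy x hxb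
  have hxy : y = x := by
    by_contra hne
    exact hcompat y x hne h1 h2
  subst hxy
  have h3 : y ∈ B a := mem_Is.1 hx a (Or.inl rfl)
  have hay : a = y := by
    by_contra hne
    exact hcompat a y hne h3 (hAC y a hya)
  have h4 : y ∈ C b := mem_Is.1 hy b (Or.inl rfl)
  have hyb : y = b := by
    by_contra hne
    exact hcompat y b hne (hAB y b hxb) h4
  exact hab (hay.trans hyb)

/-- the comparison `m1 ≤ m2` -/
theorem Opt.comparison (h : Opt E B C) :
    En E (Is E B) + En E (Is E C) ≤ En E B + En E C := by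
  have h1 := h.key
  have h2 := h.dual
  linarith

theorem exists_opt {E : Finset (V × V)} (hE : Ori E) : ∃ B C : V → Finset V, Opt E B C := by
  let A : V → Finset V := fun a => univ.filter (fun b => Adj E a b)
  have hA : F2 E A A := by
    refine ⟨fun a b h => by simpa [A] using h, fun a b h => by simpa [A] using h, ?_⟩
    intro a b hab hb ha
    have h1 : Adj E a b := by simpa [A] using hb
    have h2 : Adj E b a := by simpa [A] using ha
    rcases h1 with h1 | h1
    · exact hab h1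
    · rcases h2 with h2 | h2
      · exact hab h2.symm
      · exact hE a b h1 h2
  obtain ⟨p, hp, hm⟩ := exists_min_image
    (univ.filter (fun p : (V → Finset V) × (V → Finset V) => F2 E p.1 p.2))
    (fun p => En E p.1 + En E p.2) ⟨(A, A), by simpa using hA⟩
  refine ⟨p.1, p.2, by simpa using hp, ?_⟩
  intro B' C' h
  exact hm (B', C') (by simpa using h)

theorem exists_opt1 (E : Finset (V × V)) (hne : ∃ X Y : V → Finset V, F1 E X Y) :
    ∃ X Y : V → Finset V, F1 E X Y ∧
      ∀ X' Y', F1 E X' Y' → En E X + En E Y ≤ En E X' + En E Y' := by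
  obtain ⟨X0, Y0, h0⟩ := hne
  obtain ⟨p, hp, hm⟩ := exists_min_image
    (univ.filter (fun p : (V → Finset V) × (V → Finset V) => F1 E p.1 p.2))
    (fun p => En E p.1 + En E p.2) ⟨(X0, Y0), by simpa using h0⟩
  refine ⟨p.1, p.2, by simpa using hp, ?_⟩
  intro B' C' h
  exact hm (B', C') (by simpa using h)

/-- a nonempty counterexample has a directed cycle: two vertices `a`, `b` with `b → a` and
`b` in every closed set containing `a` -/
theorem exists_cycle [Nonempty V] {E : Finset (V × V)} (hE : Ori E) (hCE : CE E) :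
    ∃ a b : V, (b, a) ∈ E ∧ ∀ S : Finset V, cl E S = S → a ∈ S → b ∈ S := by
  -- take a minimal nonempty closed set
  obtain ⟨S, hS, hm⟩ := exists_min_image
    (univ.filter (fun S : Finset V => S.Nonempty ∧ cl E S = S)) Finset.card
    ⟨univ, by
      simp only [mem_filter, mem_univ, true_and]
      exact ⟨univ_nonempty, Subset.antisymm (subset_univ _) (sub_cl E _)⟩⟩
  simp only [mem_filter, mem_univ, true_and] at hS hm
  obtain ⟨⟨b, hb⟩, hcl⟩ := hS
  -- b has an out-neighbour
  have h1 : ∃ a, (b, a) ∈ E := by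
    by_contra h
    push Not at h
    have h2 : cl E {b} = {b} := by
      apply Subset.antisymm _ (sub_cl E _)
      intro v hv
      obtain ⟨u, hu, h3⟩ := mem_cl.1 hv
      rw [mem_singleton] at hu ⊢
      subst hu
      rcases h3 with h3 | h3
      · exact h3.symm
      · exact absurd h3 (h v)
    have h3 := hCE b
    rw [h2] at h3
    exact lt_irrefl _ h3
  obtain ⟨a, ha⟩ := h1
  refine ⟨a, b, ha, ?_⟩
  intro T hT haT
  -- a ∈ S
  have haS : a ∈ S := by rw [← hcl]; exact mem_cl.2 ⟨b, hb, Or.inr ha⟩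
  have h2 : cl E (S ∩ T) = S ∩ T := by
    apply Subset.antisymm _ (sub_cl E _)
    intro v hv
    refine mem_inter.2 ⟨?_, ?_⟩
    · rw [← hcl]; exact cl_mono inter_subset_left hv
    · rw [← hT]; exact cl_mono inter_subset_right hv
  have h3 := hm (S ∩ T) ⟨⟨a, mem_inter.2 ⟨haS, haT⟩⟩, h2⟩
  have h4 : S ∩ T = S := eq_of_subset_of_card_le inter_subset_left h3
  have h5 : b ∈ S ∩ T := by rw [h4]; exact hb
  exact (mem_inter.1 h5).2

theorem no_min_CE [Nonempty V] {E : Finset (V × V)} (hE : Ori E) (hCE : CE E)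
    (hmin : ∀ E' : Finset (V × V), E' ⊂ E → ¬ CE E') : False := by
  obtain ⟨B, C, hopt⟩ := exists_opt hE
  obtain ⟨X, Y, hf, hXY⟩ := exists_opt1 E ⟨_, _, hopt.f1⟩
  have h1 : En E X + En E Y ≤ En E B + En E C := (hXY _ _ hopt.f1).trans hopt.comparison
  have hf2 : F2 E (fun a => cl E (X a)) (fun a => cl E (Y a)) :=
    ⟨fun a b h => mem_cl'.2 ⟨a, hf.rX a, h⟩, fun a b h => mem_cl'.2 ⟨a, hf.rY a, h⟩, hf.dis⟩
  have h2 := hopt.m _ _ hf2
  have hG : ∀ S : Finset V, c E (cl E S) ≤ c E S := by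
    intro S
    by_cases h : cl E S = S
    · rw [h]
    · exact (gThm hCE hmin S h).le
  have hGX : ∀ a, c E (cl E (X a)) ≤ c E (X a) := fun a => hG _
  have hGY : ∀ a, c E (cl E (Y a)) ≤ c E (Y a) := fun a => hG _
  obtain ⟨a, b, hba, hcyc⟩ := exists_cycle hE hCE
  have hne : cl E (X a) ≠ X a := by
    intro h
    have hbX : b ∈ X a := hcyc _ h (hf.rX a)
    have hab : a ≠ b := by
      rintro rfl
      exact hE a a hba hba
    exact hf.dis a b hab (sub_cl E _ hbX) (mem_cl.2 ⟨b, hf.rY b, Or.inr hba⟩)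
  have h3 : En E (fun a => cl E (X a)) < En E X := by
    unfold En
    exact sum_lt_sum (fun a _ => hGX a) ⟨a, mem_univ a, gThm hCE hmin _ hne⟩
  have h4 : En E (fun a => cl E (Y a)) ≤ En E Y := by
    unfold En
    exact sum_le_sum (fun a _ => hGY a)
  linarith

theorem no_CE [Nonempty V] {E : Finset (V × V)} (hE : Ori E) (hCE : CE E) : False := by
  obtain ⟨E', hE', hm⟩ := exists_min_image
    (univ.filter (fun F : Finset (V × V) => F ⊆ E ∧ CE F)) Finset.card
    ⟨E, by simpa using hCE⟩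
  simp only [mem_filter, mem_univ, true_and] at hE' hm
  apply no_min_CE (E := E') (fun a b h1 h2 => hE a b (hE'.1 h1) (hE'.1 h2)) hE'.2
  intro F hF hFCE
  have h1 := hm F ⟨hF.1.trans hE'.1, hFCE⟩
  have h2 := card_lt_card hF
  omega

end Vale.Agent.P038.H173
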