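import Vale.Agent.P038.H173.Base

/-!
# The comparison of the two minimum cuts (helper173, note 22854)
-/

namespace Vale.Agent.P038.H173

open Finset Classical

variable {V : Type*} [Fintype V]

/-- closed adjacency -/
def Adj (E : Finset (V × V)) (a b : V) : Prop := a = b ∨ (a, b) ∈ E

theorem mem_cl' {E : Finset (V × V)} {S : Finset V} {v : V} :
    v ∈ cl E S ↔ ∃ u ∈ S, Adj E u v := mem_cl

/-- feasible pairs of problem (II) -/
structure F2 (E : Finset (V × V)) (B C : V → Finset V) : Prop where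
  AB : ∀ a b, Adj E a b → b ∈ B a
  AC : ∀ a b, Adj E a b → b ∈ C a
  dis : ∀ a b, a ≠ b → b ∈ B a → a ∉ C b

/-- feasible pairs of problem (I) -/
structure F1 (E : Finset (V × V)) (X Y : V → Finset V) : Prop where
  rX : ∀ a, a ∈ X a
  rY : ∀ a, a ∈ Y a
  dis : ∀ a b, a ≠ b → b ∈ cl E (X a) → a ∉ cl E (Y b)

noncomputable def En (E : Finset (V × V)) (B : V → Finset V) : ℤ := ∑ a, c E (B a)

/-- a set minimising `c` over an interval -/
theorem exists_zmin (E : Finset (V × V)) (L U : Finset V) :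
    ∃ Z : Finset V, L ⊆ U → (L ⊆ Z ∧ Z ⊆ U ∧ ∀ Z', L ⊆ Z' → Z' ⊆ U → c E Z ≤ c E Z') := by
  by_cases h : L ⊆ U
  · obtain ⟨Z, hZ, hm⟩ := exists_min_image (univ.filter (fun Z : Finset V => L ⊆ Z ∧ Z ⊆ U))
      (c E) ⟨L, by simp [h]⟩
    refine ⟨Z, fun _ => ?_⟩
    simp only [mem_filter, mem_univ, true_and] at hZ hm
    exact ⟨hZ.1, hZ.2, fun Z' h1 h2 => hm Z' ⟨h1, h2⟩⟩
  · exact ⟨∅, fun h' => absurd h' h⟩

noncomputable def zmin (E : Finset (V × V)) (L U : Finset V) : Finset V :=
  Classical.choose (exists_zmin E L U)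

noncomputable def M (E : Finset (V × V)) (L U : Finset V) : ℤ := c E (zmin E L U)

theorem zmin_spec (E : Finset (V × V)) {L U : Finset V} (h : L ⊆ U) :
    L ⊆ zmin E L U ∧ zmin E L U ⊆ U ∧ ∀ Z', L ⊆ Z' → Z' ⊆ U → M E L U ≤ c E Z' :=
  Classical.choose_spec (exists_zmin E L U) h

theorem M_mono (E : Finset (V × V)) {L L' U : Finset V} (h : L ⊆ L') (h' : L' ⊆ U) :
    M E L U ≤ M E L' U := by
  obtain ⟨h1, h2, -⟩ := zmin_spec E h'
  exact (zmin_spec E (h.trans h')).2.2 _ (h.trans h1) h2

theorem M_self (E : Finset (V × V)) (U : Finset V) : M E U U = c E U := by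
  obtain ⟨h1, h2, -⟩ := zmin_spec E (Subset.refl U)
  unfold M
  rw [Subset.antisymm h2 h1]

theorem M_eq (E : Finset (V × V)) {L U : Finset V} (h : L ⊆ U)
    (hm : ∀ Z, L ⊆ Z → Z ⊆ U → c E L ≤ c E Z) : M E L U = c E L := by
  apply le_antisymm
  · exact (zmin_spec E h).2.2 _ (Subset.refl L) h
  · obtain ⟨h1, h2, -⟩ := zmin_spec E h
    exact hm _ h1 h2

/-- exchange -/
theorem M_exch (E : Finset (V × V)) {P Q J U : Finset V} {b : V} (hPQ : P ⊆ Q) (hJU : J ⊆ U)
    (hP : insert b P ⊆ J) (hQ : insert b Q ⊆ U) :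
    M E (insert b Q) U - M E Q U ≤ M E (insert b P) J - M E P J := by
  have hPJ : P ⊆ J := (subset_insert b P).trans hP
  have hQU : Q ⊆ U := (subset_insert b Q).trans hQ
  obtain ⟨a1, a2, -⟩ := zmin_spec E hP
  obtain ⟨b1, b2, -⟩ := zmin_spec E hQU
  set Z1 := zmin E (insert b P) J with hZ1
  set Z2 := zmin E Q U with hZ2
  have h1 : M E (insert b Q) U ≤ c E (Z1 ∪ Z2) := by
    apply (zmin_spec E hQ).2.2
    · intro x hx
      rcases mem_insert.1 hx with rfl | hx
      · exact mem_union_left _ (a1 (mem_insert_self _ _))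
      · exact mem_union_right _ (b1 hx)
    · exact union_subset (a2.trans hJU) b2
  have h2 : M E P J ≤ c E (Z1 ∩ Z2) := by
    apply (zmin_spec E hPJ).2.2
    · exact subset_inter ((subset_insert b P).trans a1) (hPQ.trans b1)
    · exact inter_subset_left.trans a2
  have h3 := c_submod E Z1 Z2
  have h4 : M E (insert b P) J = c E Z1 := rfl
  have h5 : M E Q U = c E Z2 := rfl
  linarith

variable {E : Finset (V × V)} {B C : V → Finset V}

/-- `Bh a = {a} ∪ {x : a ∉ C x}` -/
noncomputable def Bh (C : V → Finset V) (a : V) : Finset V :=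
  univ.filter (fun x => x = a ∨ a ∉ C x)

theorem mem_Bh {a x : V} : x ∈ Bh C a ↔ x = a ∨ a ∉ C x := by simp [Bh]

noncomputable def Is (E : Finset (V × V)) (B : V → Finset V) (a : V) : Finset V :=
  univ.filter (fun x => ∀ s, Adj E s a → x ∈ B s)

theorem mem_Is {a x : V} : x ∈ Is E B a ↔ ∀ s, Adj E s a → x ∈ B s := by simp [Is]

/-- minimal pair of problem (II) -/
structure Opt (E : Finset (V × V)) (B C : V → Finset V) : Prop where
  f : F2 E B C
  m : ∀ B' C', F2 E B' C' → En E B + En E C ≤ En E B' + En E C'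

theorem Opt.B_sub_Bh (h : Opt E B C) (a : V) : B a ⊆ Bh C a := by
  intro x hx
  rw [mem_Bh]
  by_cases hxa : x = a
  · exact Or.inl hxa
  · exact Or.inr (h.f.dis a x (fun h => hxa h.symm) hx)

theorem En_update (E : Finset (V × V)) (B : V → Finset V) (s : V) (S : Finset V) :
    En E (Function.update B s S) = En E B - c E (B s) + c E S := by
  unfold En
  have h1 : ∑ a, c E (Function.update B s S a)
      = c E S + ∑ a ∈ univ.erase s, c E (Function.update B s S a) := by
    rw [← Finset.add_sum_erase univ _ (mem_univ s)]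
    simp
  have h2 : ∑ a, c E (B a) = c E (B s) + ∑ a ∈ univ.erase s, c E (B a) := by
    rw [← Finset.add_sum_erase univ _ (mem_univ s)]
  have h3 : ∑ a ∈ univ.erase s, c E (Function.update B s S a)
      = ∑ a ∈ univ.erase s, c E (B a) := by
    apply sum_congr rfl
    intro a ha
    rw [Function.update_of_ne (ne_of_mem_erase ha)]
  rw [h1, h2, h3]
  ring

theorem Opt.row (h : Opt E B C) {s : V} {S : Finset V} (h1 : ∀ b, Adj E s b → b ∈ S)
    (h2 : S ⊆ Bh C s) : c E (B s) ≤ c E S := by
  have hf : F2 E (Function.update B s S) C := by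
    refine ⟨?_, h.f.AC, ?_⟩
    · intro a b hab
      by_cases has : a = s
      · subst has; rw [Function.update_self]; exact h1 b hab
      · rw [Function.update_of_ne has]; exact h.f.AB a b hab
    · intro a b hab hb
      by_cases has : a = s
      · subst has
        rw [Function.update_self] at hb
        rcases mem_Bh.1 (h2 hb) with h3 | h3
        · exact absurd h3.symm hab
        · exact h3
      · rw [Function.update_of_ne has] at hb
        exact h.f.dis a b hab hb
  have := h.m _ _ hf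
  rw [En_update] at this
  linarith

theorem Opt.row_inter (h : Opt E B C) {s : V} {S : Finset V} (h2 : S ⊆ Bh C s) :
    c E (S ∩ B s) ≤ c E S := by
  have h3 := c_submod E S (B s)
  have h4 : c E (B s) ≤ c E (S ∪ B s) :=
    h.row (fun b hb => mem_union_right _ (h.f.AB s b hb)) (union_subset h2 (h.B_sub_Bh s))
  linarith

theorem Opt.I_sub_J (h : Opt E B C) (a : V) : Is E B a ⊆ Is E (Bh C) a := by
  intro x hx
  rw [mem_Is] at hx ⊢
  exact fun s hs => h.B_sub_Bh s (hx s hs)

theorem Opt.I_le (h : Opt E B C) (a : V) {Z : Finset V} (h1 : Is E B a ⊆ Z)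
    (h2 : Z ⊆ Is E (Bh C) a) : c E (Is E B a) ≤ c E Z := by
  have key : ∀ W : Finset V, (∀ s ∈ W, Adj E s a) →
      c E (univ.filter (fun x => x ∈ Z ∧ ∀ s ∈ W, x ∈ B s)) ≤ c E Z := by
    intro W
    induction W using Finset.induction_on with
    | empty =>
      intro _
      have : (univ.filter (fun x => x ∈ Z ∧ ∀ s ∈ (∅ : Finset V), x ∈ B s)) = Z := by
        ext x; simp
      rw [this]
    | insert s W hs ih =>
      intro hW
      have ih' := ih (fun t ht => hW t (mem_insert_of_mem ht))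
      have h3 : (univ.filter (fun x => x ∈ Z ∧ ∀ t ∈ insert s W, x ∈ B t))
          = (univ.filter (fun x => x ∈ Z ∧ ∀ t ∈ W, x ∈ B t)) ∩ B s := by
        ext x
        simp only [mem_filter, mem_univ, true_and, mem_inter, mem_insert, forall_eq_or_imp]
        tauto
      rw [h3]
      refine le_trans (h.row_inter ?_) ih'
      intro x hx
      simp only [mem_filter, mem_univ, true_and] at hx
      exact (mem_Is.1 (h2 hx.1)) s (hW s (mem_insert_self _ _))
  have h4 := key (univ.filter (fun s => Adj E s a)) (fun s hs => by simpa using hs)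
  have h5 : (univ.filter (fun x => x ∈ Z ∧ ∀ s ∈ univ.filter (fun s => Adj E s a), x ∈ B s))
      = Is E B a := by
    ext x
    simp only [mem_filter, mem_univ, true_and, mem_Is]
    constructor
    · rintro ⟨_, h⟩
      exact h
    · intro h
      exact ⟨h1 (mem_Is.2 h), h⟩
  rw [h5] at h4
  exact h4

theorem Opt.col (h : Opt E B C) (b : V) {X : Finset V} (hX : ∀ s ∈ X, b ∈ Bh C s ∧ b ∉ B s) :
    X.card ≤ (univ.filter (fun a => b ∈ Is E (Bh C) a ∧ ∃ s ∈ X, Adj E s a)).card := by
  have hbb : b ∈ B b := h.f.AB b b (Or.inl rfl)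
  have hsb : ∀ s ∈ X, s ∉ C b := by
    intro s hs
    rcases mem_Bh.1 (hX s hs).1 with h1 | h1
    · exact absurd (h1 ▸ hbb) (hX s hs).2
    · exact h1
  have hf : F2 E B (Function.update C b (C b ∪ X)) := by
    refine ⟨h.f.AB, ?_, ?_⟩
    · intro a x hax
      by_cases ha : a = b
      · subst ha; rw [Function.update_self]; exact mem_union_left _ (h.f.AC a x hax)
      · rw [Function.update_of_ne ha]; exact h.f.AC a x hax
    · intro a x hax hx
      by_cases hxb : x = b
      · subst hxb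
        rw [Function.update_self]
        intro h1
        rcases mem_union.1 h1 with h1 | h1
        · exact h.f.dis a x hax hx h1
        · exact (hX a h1).2 hx
      · rw [Function.update_of_ne hxb]
        exact h.f.dis a x hax hx
  have h1 := h.m _ _ hf
  rw [En_update] at h1
  have h2 : c E (C b) ≤ c E (C b ∪ X) := by linarith
  have h3 : (C b ∪ X).card = (C b).card + X.card := by
    apply card_union_of_disjoint
    rw [disjoint_right]
    exact hsb
  have h4 : cl E (C b ∪ X) ⊆ cl E (C b) ∪ (cl E X \ cl E (C b)) := by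
    intro v hv
    rw [cl_union] at hv
    by_cases hv2 : v ∈ cl E (C b)
    · exact mem_union_left _ hv2
    · rcases mem_union.1 hv with h5 | h5
      · exact absurd h5 hv2
      · exact mem_union_right _ (mem_sdiff.2 ⟨h5, hv2⟩)
  have h5 : (cl E (C b ∪ X)).card ≤ (cl E (C b)).card + (cl E X \ cl E (C b)).card :=
    (card_le_card h4).trans (card_union_le _ _)
  have h6 : X.card ≤ (cl E X \ cl E (C b)).card := by
    unfold c at h2
    rw [h3] at h2
    push_cast at h2
    have h5' : ((cl E (C b ∪ X)).card : ℤ) ≤ (cl E (C b)).card + (cl E X \ cl E (C b)).card := by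
      exact_mod_cast h5
    have : (X.card : ℤ) ≤ (cl E X \ cl E (C b)).card := by linarith
    exact_mod_cast this
  refine h6.trans (card_le_card ?_)
  intro a ha
  obtain ⟨ha1, ha2⟩ := mem_sdiff.1 ha
  simp only [mem_filter, mem_univ, true_and]
  refine ⟨mem_Is.2 fun s hs => mem_Bh.2 ?_, mem_cl'.1 ha1⟩
  by_cases hbs : b = s
  · exact Or.inl hbs
  · refine Or.inr fun hsC => ha2 (mem_cl'.2 ⟨s, hsC, hs⟩)

/-- the step: one more column -/
theorem Opt.step (h : Opt E B C) (T : Finset V) (b : V) (hb : b ∉ T) :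
    ∑ s, (M E (B s ∪ (Bh C s ∩ insert b T)) (Bh C s) - M E (B s ∪ (Bh C s ∩ T)) (Bh C s))
      ≤ ∑ a, (M E (Is E B a ∪ (Is E (Bh C) a ∩ insert b T)) (Is E (Bh C) a)
          - M E (Is E B a ∪ (Is E (Bh C) a ∩ T)) (Is E (Bh C) a)) := by
  set φ : V → ℤ := fun s =>
    M E (B s ∪ (Bh C s ∩ insert b T)) (Bh C s) - M E (B s ∪ (Bh C s ∩ T)) (Bh C s) with hφ
  set ψ : V → ℤ := fun a => M E (Is E B a ∪ (Is E (Bh C) a ∩ insert b T)) (Is E (Bh C) a)
          - M E (Is E B a ∪ (Is E (Bh C) a ∩ T)) (Is E (Bh C) a) with hψ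
  have hψ0 : ∀ a, 0 ≤ ψ a := by
    intro a
    have := M_mono E (L := Is E B a ∪ (Is E (Bh C) a ∩ T))
      (L' := Is E B a ∪ (Is E (Bh C) a ∩ insert b T)) (U := Is E (Bh C) a)
      (union_subset_union_right (inter_subset_inter_left (subset_insert b T)))
      (union_subset (h.I_sub_J a) inter_subset_left)
    show 0 ≤ _ - _
    linarith
  let S : Finset V := univ.filter (fun s => b ∈ Bh C s ∧ b ∉ B s)
  have hφ0 : ∀ s, s ∉ S → φ s = 0 := by
    intro s hs
    have hs' : ¬ (b ∈ Bh C s ∧ b ∉ B s) := by simpa [S] using hs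
    have : B s ∪ (Bh C s ∩ insert b T) = B s ∪ (Bh C s ∩ T) := by
      ext x
      simp only [mem_union, mem_inter, mem_insert]
      constructor
      · rintro (h1 | ⟨h1, h2 | h2⟩)
        · exact Or.inl h1
        · subst h2
          by_contra h3
          push Not at h3
          exact hs' ⟨h1, h3.1⟩
        · exact Or.inr ⟨h1, h2⟩
      · rintro (h1 | ⟨h1, h2⟩)
        · exact Or.inl h1
        · exact Or.inr ⟨h1, Or.inr h2⟩
    show _ - _ = (0 : ℤ)
    rw [this]
    ring
  have hφψ : ∀ s ∈ S, ∀ a, b ∈ Is E (Bh C) a → Adj E s a → φ s ≤ ψ a := by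
    intro s hs a hba hsa
    have hs' : b ∈ Bh C s ∧ b ∉ B s := by simpa [S] using hs
    have e1 : B s ∪ (Bh C s ∩ insert b T) = insert b (B s ∪ (Bh C s ∩ T)) := by
      ext x
      simp only [mem_union, mem_inter, mem_insert]
      constructor
      · rintro (h1 | ⟨h1, h2 | h2⟩)
        · exact Or.inr (Or.inl h1)
        · exact Or.inl h2
        · exact Or.inr (Or.inr ⟨h1, h2⟩)
      · rintro (h1 | h1 | ⟨h1, h2⟩)
        · subst h1; exact Or.inr ⟨hs'.1, Or.inl rfl⟩
        · exact Or.inl h1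
        · exact Or.inr ⟨h1, Or.inr h2⟩
    have e2 : Is E B a ∪ (Is E (Bh C) a ∩ insert b T)
        = insert b (Is E B a ∪ (Is E (Bh C) a ∩ T)) := by
      ext x
      simp only [mem_union, mem_inter, mem_insert]
      constructor
      · rintro (h1 | ⟨h1, h2 | h2⟩)
        · exact Or.inr (Or.inl h1)
        · exact Or.inl h2
        · exact Or.inr (Or.inr ⟨h1, h2⟩)
      · rintro (h1 | h1 | ⟨h1, h2⟩)
        · subst h1; exact Or.inr ⟨hba, Or.inl rfl⟩
        · exact Or.inl h1
        · exact Or.inr ⟨h1, Or.inr h2⟩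
    have hIB : Is E B a ⊆ B s := fun x hx => mem_Is.1 hx s hsa
    have hJB : Is E (Bh C) a ⊆ Bh C s := fun x hx => mem_Is.1 hx s hsa
    show M E (B s ∪ (Bh C s ∩ insert b T)) (Bh C s) - M E (B s ∪ (Bh C s ∩ T)) (Bh C s)
      ≤ M E (Is E B a ∪ (Is E (Bh C) a ∩ insert b T)) (Is E (Bh C) a)
          - M E (Is E B a ∪ (Is E (Bh C) a ∩ T)) (Is E (Bh C) a)
    rw [e1, e2]
    apply M_exch E _ hJB
    · exact insert_subset_iff.2 ⟨hba, union_subset (h.I_sub_J a) inter_subset_left⟩
    · exact insert_subset_iff.2 ⟨hs'.1, union_subset (h.B_sub_Bh s) inter_subset_left⟩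
    · exact union_subset_union hIB (inter_subset_inter_right hJB)
  -- Hall
  have hall := (Finset.all_card_le_biUnion_card_iff_exists_injective
    (fun s : S => univ.filter (fun a => b ∈ Is E (Bh C) a ∧ Adj E s a))).1 (by
      intro X'
      have h1 := h.col b (X := X'.map (Function.Embedding.subtype _)) (by
        intro s hs
        simp only [mem_map, Function.Embedding.coe_subtype] at hs
        obtain ⟨s', -, rfl⟩ := hs
        exact (mem_filter.1 s'.2).2)
      rw [card_map] at h1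
      refine h1.trans (card_le_card ?_)
      intro a ha
      simp only [mem_filter, mem_univ, true_and, mem_map, Function.Embedding.coe_subtype] at ha
      obtain ⟨h2, s, ⟨s', hs', rfl⟩, h3⟩ := ha
      simp only [mem_biUnion, mem_filter, mem_univ, true_and]
      exact ⟨s', hs', h2, h3⟩)
  obtain ⟨f, hf, hfm⟩ := hall
  have h1 : ∑ s, φ s = ∑ s ∈ S, φ s := by
    symm
    apply sum_subset (subset_univ S)
    intro s _ hs
    exact hφ0 s hs
  have h2 : ∑ s ∈ S, φ s = ∑ s : S, φ s := (sum_coe_sort S φ).symm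
  have h3 : ∑ s : S, φ s ≤ ∑ s : S, ψ (f s) := by
    apply sum_le_sum
    intro s _
    have := hfm s
    simp only [mem_filter, mem_univ, true_and] at this
    exact hφψ s s.2 _ this.1 this.2
  have h4 : ∑ s : S, ψ (f s) = ∑ a ∈ univ.image f, ψ a := by
    rw [sum_image]
    intro x _ y _ hxy
    exact hf hxy
  have h5 : ∑ a ∈ univ.image f, ψ a ≤ ∑ a, ψ a :=
    sum_le_sum_of_subset_of_nonneg (subset_univ _) (fun a _ _ => hψ0 a)
  show ∑ s, φ s ≤ ∑ a, ψ a
  rw [h1, h2]
  linarith

/-- KEY INEQUALITY -/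
theorem Opt.key (h : Opt E B C) :
    En E (Bh C) - En E B ≤ En E (Is E (Bh C)) - En E (Is E B) := by
  have key : ∀ T : Finset V,
      ∑ s, (M E (B s ∪ (Bh C s ∩ T)) (Bh C s) - M E (B s) (Bh C s))
        ≤ ∑ a, (M E (Is E B a ∪ (Is E (Bh C) a ∩ T)) (Is E (Bh C) a)
          - M E (Is E B a) (Is E (Bh C) a)) := by
    intro T
    induction T using Finset.induction_on with
    | empty => simp
    | insert b T hb ih =>
      have h1 := h.step T b hb
      have h2 : ∀ (f g k : V → ℤ), ∑ s, (f s - k s) = ∑ s, (f s - g s) + ∑ s, (g s - k s) := by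
        intro f g k
        rw [← sum_add_distrib]
        apply sum_congr rfl
        intro s _
        ring
      rw [h2 (fun s => M E (B s ∪ (Bh C s ∩ insert b T)) (Bh C s))
          (fun s => M E (B s ∪ (Bh C s ∩ T)) (Bh C s)) (fun s => M E (B s) (Bh C s)),
        h2 (fun a => M E (Is E B a ∪ (Is E (Bh C) a ∩ insert b T)) (Is E (Bh C) a))
          (fun a => M E (Is E B a ∪ (Is E (Bh C) a ∩ T)) (Is E (Bh C) a))
          (fun a => M E (Is E B a) (Is E (Bh C) a))]
      linarith
  have h1 := key univ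
  have e1 : ∀ s, M E (B s ∪ (Bh C s ∩ univ)) (Bh C s) = c E (Bh C s) := by
    intro s
    rw [inter_univ, union_eq_right.2 (h.B_sub_Bh s), M_self]
  have e2 : ∀ a, M E (Is E B a ∪ (Is E (Bh C) a ∩ univ)) (Is E (Bh C) a)
      = c E (Is E (Bh C) a) := by
    intro a
    rw [inter_univ, union_eq_right.2 (h.I_sub_J a), M_self]
  have e3 : ∀ s, M E (B s) (Bh C s) = c E (B s) := by
    intro s
    apply M_eq E (h.B_sub_Bh s)
    intro Z h1 h2
    exact h.row (fun b hb => h1 (h.f.AB s b hb)) h2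
  have e4 : ∀ a, M E (Is E B a) (Is E (Bh C) a) = c E (Is E B a) := by
    intro a
    exact M_eq E (h.I_sub_J a) (fun Z h1 h2 => h.I_le a h1 h2)
  simp only [e1, e2, e3, e4, sum_sub_distrib] at h1
  exact h1

end Vale.Agent.P038.H173
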